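import Mathlib.RingTheory.Artinian.Ring
import Mathlib.RingTheory.Artinian.Algebra
import Mathlib.RingTheory.Jacobson.Ideal
import Mathlib.Algebra.Algebra.Rat
import Mathlib.Tactic

/-! # P057: nil ideals of finite dimensional algebras are nilpotent -/

namespace Vale.Agent.P057.R3.H502

/-- a nil two-sided ideal of a finite dimensional algebra over the rationals is nilpotent -/
theorem nil_ideal {R : Type} [Ring R] [Algebra ℚ R] [Module.Finite ℚ R] (I : Ideal R)
    [I.IsTwoSided] (h : ∀ z ∈ I, IsNilpotent z) : ∃ d : ℕ, I ^ d = ⊥ := by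
  have : IsArtinianRing R := isArtinian_of_tower ℚ inferInstance
  have hle : I ≤ Ideal.jacobson (⊥ : Ideal R) := by
    intro x hx
    rw [Ideal.mem_jacobson_iff]
    intro y
    have hn : IsNilpotent (y * x) := h _ (I.mul_mem_left y hx)
    have hu : IsUnit (1 + y * x) := by
      have := hn.isUnit_one_add
      exact this
    obtain ⟨u, hu⟩ := hu
    refine ⟨(↑u⁻¹ : R), ?_⟩
    have e : (↑u⁻¹ : R) * y * x + ↑u⁻¹ - 1 = ↑u⁻¹ * (1 + y * x) - 1 := by noncomm_ring
    rw [e, ← hu]
    simp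
  obtain ⟨d, hd⟩ := IsArtinianRing.isNilpotent_jacobson_bot (R := R)
  refine ⟨d, ?_⟩
  rw [← le_bot_iff]
  calc I ^ d ≤ (Ideal.jacobson (⊥ : Ideal R)) ^ d := Ideal.pow_right_mono hle d
    _ = ⊥ := hd

end Vale.Agent.P057.R3.H502
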